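import Vale.Agent.P030.Main

theorem Vale.Agent.Results.P030.Main.result :
    Irrational (∑' j : ℕ, (-1 : ℝ) ^ j / (2 * (j : ℝ) + 1) ^ 2) :=
  Vale.Agent.P030.main
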